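import Mathlib
import Vale.Agent.Lib.P129.Defs
import Vale.Agent.Lib.P129.Main

universe u v

/-- An infinite-dimensional Banach space with a dense subset of cardinality less than `cov(N)`
has a separable infinite-dimensional quotient. -/
theorem Vale.Agent.Results.P129.CovNullDensity.result
    {𝕜 : Type v} [RCLike 𝕜] {X : Type u} [NormedAddCommGroup X] [NormedSpace 𝕜 X]
    [CompleteSpace X] (hX : ¬ FiniteDimensional 𝕜 X)
    (D : Set X) (hD : Dense D)
    (hcard : Cardinal.mk D < Cardinal.lift.{u} Vale.Agent.P129.covNull) :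
    ∃ M : Submodule 𝕜 X, IsClosed (M : Set X) ∧ TopologicalSpace.SeparableSpace (X ⧸ M) ∧
      ¬ FiniteDimensional 𝕜 (X ⧸ M) := by
  refine Vale.Agent.P129.separable_quotient_of_lt_covNull hX
    ((fun x : X => ({x} : Set X)) '' D) ?_ ?_ (lt_of_le_of_lt Cardinal.mk_image_le hcard)
  · rintro _ ⟨x, _, rfl⟩
    simp
  · have h1 : ⋃₀ ((fun x : X => ({x} : Set X)) '' D) = D := by
      ext x; simp
    rw [h1, eq_top_iff]
    intro x _
    have h2 : closure D ⊆ closure (Submodule.span 𝕜 D : Set X) :=
      closure_mono Submodule.subset_span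
    exact h2 (hD x)
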