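import Mathlib
import Vale.Agent.Lib.P129.Defs
import Vale.Agent.Lib.P129.Main

universe u v

/-- An infinite-dimensional Banach space which is the closed linear span of fewer than `cov(N)`
weakly compact sets has a separable infinite-dimensional quotient. -/
theorem Vale.Agent.Results.P129.CovNullWeaklyCompact.result
    {𝕜 : Type v} [RCLike 𝕜] {X : Type u} [NormedAddCommGroup X] [NormedSpace 𝕜 X]
    [CompleteSpace X] (hX : ¬ FiniteDimensional 𝕜 X)
    (𝒦 : Set (Set X)) (hK : ∀ K ∈ 𝒦, IsCompact (toWeakSpace 𝕜 X '' K))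
    (hspan : (Submodule.span 𝕜 (⋃₀ 𝒦)).topologicalClosure = ⊤)
    (hcard : Cardinal.mk 𝒦 < Cardinal.lift.{u} Vale.Agent.P129.covNull) :
    ∃ M : Submodule 𝕜 X, IsClosed (M : Set X) ∧ TopologicalSpace.SeparableSpace (X ⧸ M) ∧
      ¬ FiniteDimensional 𝕜 (X ⧸ M) :=
  Vale.Agent.P129.separable_quotient_of_lt_covNull hX 𝒦 hK hspan hcard
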