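import Mathlib
import Vale.Agent.Lib.P129.Defs
import Vale.Agent.Lib.P129.Main

open MeasureTheory

universe u v w

namespace Vale.Agent.Results.P129.SurjectionCovNull

/-- `X` has a separable infinite-dimensional quotient: there is a bounded linear surjection of
`X` onto a separable infinite-dimensional Banach space. -/
def HasSeparableQuotient (𝕜 : Type v) [RCLike 𝕜] (X : Type u) [NormedAddCommGroup X]
    [NormedSpace 𝕜 X] : Prop :=
  ∃ (Y : Type u) (_ : NormedAddCommGroup Y) (_ : NormedSpace 𝕜 Y) (T : X →L[𝕜] Y),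
    CompleteSpace Y ∧ TopologicalSpace.SeparableSpace Y ∧ ¬ FiniteDimensional 𝕜 Y ∧
      Function.Surjective T

private theorem card_lt {X : Type u} {ι : Type w} (K : ι → Set X)
    (hι : ∀ N : ι → Set ℝ, (∀ i, volume (N i) = 0) → ⋃ i, N i ≠ Set.univ) :
    Cardinal.mk (Set.range K) < Cardinal.lift.{u} Vale.Agent.P129.covNull := by
  by_contra hcon
  rw [not_lt] at hcon
  have hne : {κ : Cardinal.{0} | ∃ 𝒩 : Set (Set ℝ), Cardinal.mk 𝒩 = κ ∧
      (∀ N ∈ 𝒩, volume N = 0) ∧ ⋃₀ 𝒩 = Set.univ}.Nonempty := by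
    refine ⟨_, Set.range (fun x : ℝ => ({x} : Set ℝ)), rfl, ?_, ?_⟩
    · rintro _ ⟨x, rfl⟩
      simp
    · ext x
      simp
  obtain ⟨𝒩, h1, h2, h3⟩ := csInf_mem hne
  have h4 : Cardinal.lift.{u} (Cardinal.mk 𝒩) ≤ Cardinal.lift.{0} (Cardinal.mk (Set.range K)) := by
    rw [h1, Cardinal.lift_id'.{0, u} (Cardinal.mk (Set.range K))]
    exact hcon
  obtain ⟨g⟩ := Cardinal.lift_mk_le'.1 h4
  -- a null set for every index
  classical
  let N : ι → Set ℝ := fun i =>
    if h : ∃ A : 𝒩, g A = ⟨K i, i, rfl⟩ then (h.choose : Set ℝ) else ∅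
  refine hι N (fun i => ?_) ?_
  · by_cases h : ∃ A : 𝒩, g A = ⟨K i, i, rfl⟩
    · simp only [N, dif_pos h]
      exact h2 _ h.choose.2
    · simp only [N, dif_neg h]
      exact measure_empty
  · rw [Set.eq_univ_iff_forall]
    intro x
    have hx : x ∈ ⋃₀ 𝒩 := by rw [h3]; trivial
    obtain ⟨A, hA, hxA⟩ := hx
    obtain ⟨i, hi⟩ := (g ⟨A, hA⟩).2
    have h : ∃ B : 𝒩, g B = ⟨K i, i, rfl⟩ := ⟨⟨A, hA⟩, Subtype.ext hi.symm⟩
    refine Set.mem_iUnion.2 ⟨i, ?_⟩
    simp only [N, dif_pos h]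
    have h5 : h.choose = ⟨A, hA⟩ := g.injective (h.choose_spec.trans (Subtype.ext hi))
    rw [h5]
    exact hxA

private theorem main {𝕜 : Type v} [RCLike 𝕜] {X : Type u} [NormedAddCommGroup X]
    [NormedSpace 𝕜 X] [CompleteSpace X] (hX : ¬ FiniteDimensional 𝕜 X) {ι : Type w}
    (hι : ∀ N : ι → Set ℝ, (∀ i, volume (N i) = 0) → ⋃ i, N i ≠ Set.univ)
    (K : ι → Set X) (hK : ∀ i, IsCompact (toWeakSpace 𝕜 X '' K i))
    (hd : Dense (Submodule.span 𝕜 (⋃ i, K i) : Set X)) : HasSeparableQuotient 𝕜 X := by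
  obtain ⟨M, hM, h1, h2⟩ := Vale.Agent.P129.separable_quotient_of_lt_covNull hX (Set.range K)
    (by rintro _ ⟨i, rfl⟩; exact hK i)
    (by
      rw [Set.sUnion_range]
      exact (Submodule.dense_iff_topologicalClosure_eq_top).1 hd)
    (card_lt K hι)
  have := hM
  refine ⟨X ⧸ M, inferInstance, inferInstance, M.mkQL, inferInstance, h1, h2, ?_⟩
  exact Submodule.mkQ_surjective M

/-- Let `X` be an infinite-dimensional Banach space (real or complex) and let `ι` be an index set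
such that the real line is not the union of a family `(N_i)_{i ∈ ι}` of Lebesgue null sets
(that is, `|ι| < cov(N)`).  If `X` has a dense subset indexed by `ι` (`dens X < cov(N)`), or is
the closed linear span of weakly compact sets `K_i`, `i ∈ ι`, then `X` has a separable
infinite-dimensional quotient. -/
theorem result {𝕜 : Type v} [RCLike 𝕜] {X : Type u} [NormedAddCommGroup X] [NormedSpace 𝕜 X]
    [CompleteSpace X] (hX : ¬ FiniteDimensional 𝕜 X) {ι : Type w}
    (hι : ∀ N : ι → Set ℝ, (∀ i, volume (N i) = 0) → ⋃ i, N i ≠ Set.univ) :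
    ((∃ x : ι → X, DenseRange x) → HasSeparableQuotient 𝕜 X) ∧
    ((∃ K : ι → Set X, (∀ i, IsCompact (toWeakSpace 𝕜 X '' K i)) ∧
      Dense (Submodule.span 𝕜 (⋃ i, K i) : Set X)) → HasSeparableQuotient 𝕜 X) := by
  refine ⟨?_, fun ⟨K, hK, hd⟩ => main hX hι K hK hd⟩
  rintro ⟨x, hx⟩
  refine main hX hι (fun i => {x i}) (fun i => by simp) ?_
  refine hx.mono ?_
  rintro _ ⟨i, rfl⟩
  exact Submodule.subset_span (Set.mem_iUnion.2 ⟨i, rfl⟩)

end Vale.Agent.Results.P129.SurjectionCovNull
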